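import Crest.Agent.X262.Dg87.Main
import Crest.Agent.X262.Dg72.Main

/-! # Row 262, road B (helper87): the degree zero axiom -/

namespace Crest.Agent.X262.Dg87

theorem deg0Stmt : Vb.Deg0Stmt := Dg72.deg0Stmt_of oneStmt

end Crest.Agent.X262.Dg87
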