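import Crest.Agent.X262.Tr89.Trm
import Crest.Agent.X262.Cnt37.Core

/-!
# Row 262, road B (helper87): affine charts at a generic point

* `exists_hmg` : every polynomial in the affine coordinates is a dehomogenisation;
* `gen_af`, `indep_af`, `GenPt.spec` : generators, independence, specialisation;
* `exists_eqs` : equations with independent differentials.
-/

set_option autoImplicit false
set_option linter.unusedSectionVars false

noncomputable section

namespace Crest.Agent.X262.Dg87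

open Crest.Agent.X277 Crest.Agent.X277.BD
open Crest.Agent.X262.Vb Crest.Agent.X262.Tr89 Crest.Agent.X262.Cnt37
open Crest.Agent.X262.Node22 (scl chr vec vsc chr_ne pv_scl jac_apply jac_euler)
open MvPolynomial
open IntermediateField (adjoin)
open Set (range)

variable {J : Type} [Fintype J] [DecidableEq J] {io : J → Type} [∀ j, Fintype (io j)]
  [∀ j, DecidableEq (io j)] {A : Type} [Fintype A] {T : Tgt io A} {c : ℕ}
  {K E : Type} [Field K] [Algebra ℂ K] [Field E] [Algebra ℂ E] {i₀ : (j : J) → io j}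
  {y : Pnt io K}

theorem mh_X (v : Vr io) : MH (X v) (Pi.single v.1 1) := isWeightedHomogeneous_X _ _ v

theorem exists_piv (i₀ : (j : J) → io j) (κ : J → ℕ) : ∃ q, MH q κ ∧ dhm i₀ q = 1 := by
  refine ⟨∏ j, X ⟨j, i₀ j⟩ ^ κ j, ?_, by simp [dhm]⟩
  have h := IsWeightedHomogeneous.prod (R := ℂ) Finset.univ
    (fun j => (X ⟨j, i₀ j⟩ : MvPolynomial (Vr io) ℂ) ^ κ j) (fun j => κ j • Pi.single j 1)
    (w := fun v : Vr io => (Pi.single v.1 1 : J → ℕ)) fun j _ => (mh_X ⟨j, i₀ j⟩).pow (κ j)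
  rwa [show ∑ j, κ j • (Pi.single j 1 : J → ℕ) = κ from funext fun j => by
    simp [Finset.sum_apply, Pi.single_apply]] at h

theorem exists_hmg (i₀ : (j : J) → io j) (p : MvPolynomial (Af i₀) ℂ) :
    ∃ q κ, MH q κ ∧ dhm i₀ q = p := by
  induction p using MvPolynomial.induction_on with
  | C a => exact ⟨C a, 0, isWeightedHomogeneous_C _ a, by simp [dhm]⟩
  | add p p' hp hp' =>
    obtain ⟨q, κ, h1, rfl⟩ := hp
    obtain ⟨q', κ', h2, rfl⟩ := hp'
    obtain ⟨u, h3, h4⟩ := exists_piv i₀ κ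
    obtain ⟨u', h5, h6⟩ := exists_piv i₀ κ'
    exact ⟨q * u' + u * q', κ + κ', (h1.mul h5).add (h3.mul h2), by simp [h4, h6]⟩
  | mul_X p v hp =>
    obtain ⟨q, κ, h1, rfl⟩ := hp
    exact ⟨q * X ⟨v.1, v.2.1⟩, _, h1.mul (mh_X _), by simp [dhm, v.2.2]⟩

theorem card_af (i₀ : (j : J) → io j) : Fintype.card (Af i₀) = adim io := by
  rw [← Nat.card_eq_fintype_card, card_Af]
  rfl

theorem gen_af (hy : ∀ j, y j (i₀ j) ≠ 0) (h : adjoin ℂ {t | ∃ j i i', t = y j i / y j i'} = ⊤) :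
    adjoin ℂ (range (af i₀ y)) = ⊤ := by
  have h1 : ∀ j i, y j i / y j (i₀ j) ∈ adjoin ℂ (range (af i₀ y)) := fun j i => by
    by_cases hi : i = i₀ j
    · rw [hi, div_self (hy j)]; exact one_mem _
    · exact IntermediateField.subset_adjoin _ _ ⟨⟨j, i, hi⟩, rfl⟩
  refine top_unique (h ▸ IntermediateField.adjoin_le_iff.2 ?_)
  rintro _ ⟨j, i, i', rfl⟩
  rw [← div_div_div_cancel_right₀ (hy j)]
  exact div_mem (h1 j i) (h1 j i')

theorem indep_af (hy : ∀ j, y j (i₀ j) ≠ 0)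
    (h : adjoin ℂ {t | ∃ j i i', t = y j i / y j i'} = ⊤) (hd : adim io ≤ dim ℂ K) :
    AlgebraicIndependent ℂ (af i₀ y) :=
  algInd_of_dim (gen_af hy h) (by rwa [card_af])

/-- a generic point of the ambient space satisfies no equation -/
theorem pv_ne (hy : NZ y) (h : adjoin ℂ {t | ∃ j i i', t = y j i / y j i'} = ⊤)
    (hd : adim io ≤ dim ℂ K) {q : MvPolynomial (Vr io) ℂ} {κ : J → ℕ} (hq : MH q κ) (h0 : q ≠ 0) :
    pv y q ≠ 0 := fun h1 => by
  choose i₁ hi using hy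
  exact h0 (eq_zero_of_indep hi (indep_af hi h hd) hq h1)

theorem pv_X (y : Pnt io K) (v : Vr io) : pv y (X v) = y v.1 v.2 := aeval_X _ _

theorem piv_ne (h : GenPt T c y) {η : Pnt io E} (hη : ∀ j, η j (i₀ j) ≠ 0) (hO : T.On η) (j : J) :
    y j (i₀ j) ≠ 0 := fun h0 =>
  hη j ((pv_X η ⟨j, i₀ j⟩).symm.trans
    (h.irr _ _ (mh_X ⟨j, i₀ j⟩) ((pv_X _ _).trans h0) E η (fun j => ⟨_, hη j⟩) hO))

theorem spec (h : GenPt T c y) {η : Pnt io E} (hη : ∀ j, η j (i₀ j) ≠ 0) (hO : T.On η)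
    (p : MvPolynomial (Af i₀) ℂ) (hp : aeval (af i₀ y) p = 0) : aeval (af i₀ η) p = 0 := by
  obtain ⟨q, κ, h1, rfl⟩ := exists_hmg i₀ p
  have h2 := piv_ne h hη hO
  rw [aeval_dhm h2 h1, mul_eq_zero, or_iff_right (chr_ne (fun j => inv_ne_zero (h2 j)) _)] at hp
  rw [aeval_dhm hη h1, h.irr q κ h1 hp E η (fun j => ⟨_, hη j⟩) hO, mul_zero]

variable (i₀) in
/-- the coordinates which are one at the pivots -/
def nrm (y : Pnt io K) : Pnt io K := scl (fun j => (y j (i₀ j))⁻¹) y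

theorem nrm_apply (y : Pnt io K) (j : J) (i : io j) : nrm i₀ y j i = y j i / y j (i₀ j) :=
  (div_eq_inv_mul _ _).symm

theorem pv_nrm' (hy : ∀ j, y j (i₀ j) ≠ 0) (q : MvPolynomial (Vr io) ℂ) :
    pv (nrm i₀ y) q = aeval (af i₀ y) (dhm i₀ q) := by
  rw [dhm, comp_aeval_apply, pv]
  congr 2
  funext v
  split_ifs with h
  · rw [map_one, nrm_apply, h, div_self (hy _)]
  · rw [aeval_X, nrm_apply, af]

theorem pderiv_dhm (v : Af i₀) (q : MvPolynomial (Vr io) ℂ) :
    pderiv v (dhm i₀ q) = dhm i₀ (pderiv ⟨v.1, v.2.1⟩ q) := by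
  induction q using MvPolynomial.induction_on with
  | C a => simp [dhm]
  | add p q hp hq => simp [hp, hq]
  | mul_X p w hp =>
    have h : pderiv v (dhm i₀ (X w)) = dhm i₀ (pderiv ⟨v.1, v.2.1⟩ (X w)) := by
      obtain ⟨j, i, hi⟩ := v
      by_cases h1 : w = ⟨j, i⟩
      · subst h1
        simp [dhm, hi]
      · rw [pderiv_X_of_ne h1, map_zero, dhm, aeval_X]
        split_ifs with h2
        · simp
        · exact pderiv_X_of_ne fun h3 =>
            h1 (congrArg (fun u : Af i₀ => (⟨u.1, u.2.1⟩ : Vr io)) h3)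
    rw [map_mul, Derivation.leibniz, Derivation.leibniz, hp, h]
    simp

theorem finrank_grd (hy : ∀ j, y j (i₀ j) ≠ 0) (hO : T.On y) :
    Module.finrank K (Submodule.span K (range fun a => grd (af i₀ y) (dhm i₀ (T.F a)))) =
      Module.finrank K (T.Nm (nrm i₀ y)) := by
  let M : Matrix A (Af i₀) K := Matrix.of fun a => grd (af i₀ y) (dhm i₀ (T.F a))
  have hM : ∀ a v, M a v = pv (nrm i₀ y) (pderiv ⟨v.1, v.2.1⟩ (T.F a)) := fun a v => by
    rw [pv_nrm' hy, ← pderiv_dhm]; rfl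
  have hO' : T.On (nrm i₀ y) := (on_scl_iff T fun j => inv_ne_zero (hy j)).2 hO
  have h1 : ∀ w : Vr io → K, (∀ j, w ⟨j, i₀ j⟩ = 0) →
      T.jac (nrm i₀ y) w = M.mulVec fun v => w ⟨v.1, v.2.1⟩ := fun w hw => by
    funext a
    rw [jac_apply, Matrix.mulVec, dotProduct, Fintype.sum_sigma, Fintype.sum_sigma]
    refine Finset.sum_congr rfl fun j _ => ?_
    rw [Fintype.sum_eq_add_sum_subtype_ne _ (i₀ j), hw, mul_zero, zero_add]
    exact Finset.sum_congr rfl fun i _ => by rw [hM]; rfl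
  have h2 : T.Nm (nrm i₀ y) = LinearMap.range M.mulVecLin := by
    refine le_antisymm ?_ ?_
    · rintro _ ⟨w, rfl⟩
      refine ⟨_, (h1 (w - vsc (fun j => w ⟨j, i₀ j⟩) (vec (nrm i₀ y))) fun j => ?_).symm.trans ?_⟩
      · change w _ - w _ * nrm i₀ y j (i₀ j) = 0
        rw [nrm_apply, div_self (hy j), mul_one, sub_self]
      · rw [map_sub, jac_euler T hO', sub_zero]
    · rintro _ ⟨u, rfl⟩
      refine ⟨fun v => if h : v.2 = i₀ v.1 then 0 else u ⟨v.1, v.2, h⟩, (h1 _ (by simp)).trans ?_⟩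
      rw [Matrix.mulVecLin_apply]
      congr 1
      funext v
      exact dif_neg v.2.2
  rw [h2]
  exact (Matrix.rank_eq_finrank_span_row M).symm

theorem exists_eqs (hy : ∀ j, y j (i₀ j) ≠ 0) (hO : T.On y) {n : ℕ}
    (h : Module.finrank K (T.Nm (nrm i₀ y)) = n) : ∃ g : Fin n → A,
      LinearIndependent K fun b => grd (af i₀ y) (dhm i₀ (T.F (g b))) := by
  rw [← finrank_grd hy hO] at h
  obtain ⟨f, h1, -, h2⟩ := Submodule.exists_fun_fin_finrank_span_eq K
    (range fun a => grd (af i₀ y) (dhm i₀ (T.F a)))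
  subst h
  choose g hg using h1
  exact ⟨g, by simpa only [hg] using h2⟩

end Crest.Agent.X262.Dg87
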