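import Crest.Agent.X262.Vb.Defs

/-!
# Row 262, road B (helper87): the one point statement behind the degree zero axiom
-/

set_option autoImplicit false
set_option linter.unusedSectionVars false

noncomputable section

namespace Crest.Agent.X262.Dg87

open Crest.Agent.X277 Crest.Agent.X277.BD Crest.Agent.X277.Pst
open Crest.Agent.X262.Hb Crest.Agent.X262.Vb

/-- the configuration of one point -/
def one {J : Type} {io : J → Type} {K : Type} [Field K] (Y : Pnt io K) : Cfg io Unit K :=
  ⟨fun _ => Y, fun _ => ⊤⟩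

/-- the virtual number of the generic point of the ambient space -/
def OneStmt : Prop :=
  ∀ (B : Th), B.Ax → ∀ {J : Type} [Fintype J] [DecidableEq J] {io : J → Type}
    [∀ j, Fintype (io j)] [∀ j, DecidableEq (io j)] {A : Type} [Fintype A] (T : Tgt io A) (c : ℕ),
    Smo T c → ∀ {K₀ : Type} [Field K₀] [Algebra ℂ K₀] [Algebra.EssFiniteType ℂ K₀]
    (y₀ : Pnt io K₀), GenPt T c y₀ → ∀ {K : Type} [Field K] [Algebra ℂ K]
    [Algebra.EssFiniteType ℂ K] (Y : Pnt io K), NZ Y →
    IntermediateField.adjoin ℂ {t | ∃ j i i', t = Y j i / Y j i'} = ⊤ → dim ℂ K = adim io →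
    ∀ {M : Type} (Φ : MFam B io M), MCls B T Φ →
    vir B T (one Y) (fun _ : M => ()) Φ = B.itg K₀ (Φ K₀ fun _ => y₀)

end Crest.Agent.X262.Dg87
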