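import Crest.Agent.X262.Dg87.Aff
import Crest.Agent.X262.Dg87.Defs
import Crest.Agent.X262.Vb.Vir

/-!
# Row 262, road B (helper87): the virtual number of a generic constant configuration

* `cen`     : the integrand on a component centred at a smooth point;
* `off`     : only components centred at the generic point contribute;
* `vir_cst` : the virtual number, `oneStmt`.
-/

set_option autoImplicit false
set_option linter.unusedSectionVars false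

noncomputable section

namespace Crest.Agent.X262.Dg87

open Crest.Agent.X277 Crest.Agent.X277.BD Crest.Agent.X277.Pst Crest.Agent.X277.BD.Cyc
open Crest.Agent.X262.Geo Crest.Agent.X262.Hb
open Crest.Agent.X262.Vb Crest.Agent.X262.Tr89 Crest.Agent.X262.Cnt37
open Crest.Agent.X262.Node22 (scl chr chr_ne)
open Crest.Agent.X262.Lin62 (eft_of_top adjoin_sub)
open MvPolynomial WithZero
open IntermediateField (adjoin)
open Set (range)
open List (replicate)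
open IsScalarTower (toAlgHom)

variable {J : Type} [Fintype J] [DecidableEq J] {io : J → Type} [∀ j, Fintype (io j)]
  [∀ j, DecidableEq (io j)] {A : Type} [Fintype A] {T : Tgt io A} {B : Th}
  {I M : Type} [Fintype I] [Nonempty I] {Φ : MFam B io M}
  {K κ : Type} [Field K] [Algebra ℂ K] [Field κ] [Algebra ℂ κ] {i₀ : (j : J) → io j}
  {Y : Pnt io K} {η : Pnt io κ} {W : RZ ℂ K} {r : ℕ}

theorem nrm_piv (hY : ∀ j, Y j (i₀ j) ≠ 0) (j : J) : nrm i₀ Y j (i₀ j) = 1 := by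
  rw [nrm_apply, div_self (hY j)]

theorem prim_nrm (hY : ∀ j, Y j (i₀ j) ≠ 0) (hm : ∀ v, af i₀ Y v ∈ W.1) : Prim W (nrm i₀ Y) :=
  fun j => ⟨fun i => by
    by_cases hi : i = i₀ j
    · rw [hi, nrm_piv hY]; exact one_mem _
    · rw [nrm_apply]; exact hm ⟨j, i, hi⟩, i₀ j, by rw [nrm_piv hY, map_one]⟩

theorem red_nrm (hY : ∀ j, Y j (i₀ j) ≠ 0) (hη : ∀ j, η j (i₀ j) ≠ 0) {α : κ →ₐ[ℂ] Rf W}
    (h : ∀ v, (plV W).r (af i₀ Y v) = α (af i₀ η v)) :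
    redP (plV W) (nrm i₀ Y) = mapP α (nrm i₀ η) := by
  funext j i
  by_cases hi : i = i₀ j
  · rw [redP, mapP, hi, nrm_piv hY, nrm_piv hη, map_one, Pl.r_one]
  · rw [redP, mapP, nrm_apply, nrm_apply]; exact h ⟨j, i, hi⟩

theorem mcls_nrm [Algebra.EssFiniteType ℂ κ] (hΦ : MCls B T Φ) (hη : ∀ j, η j (i₀ j) ≠ 0)
    (hO : T.On η) : (Φ κ fun _ => nrm i₀ η) = Φ κ fun _ => η :=
  hΦ.scl κ (fun _ => η) (fun _ j => (η j (i₀ j))⁻¹) (fun _ j => inv_ne_zero (hη j))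
    (fun _ j => ⟨_, hη j⟩) fun _ => hO

variable [Algebra.EssFiniteType ℂ K] [Algebra.EssFiniteType ℂ κ]

section Cen

variable [Algebra κ (Rf W)] [IsScalarTower ℂ κ (Rf W)] [CharZero κ]
  [Algebra.EssFiniteType κ (Rf W)]

theorem comb {σ ι : Type} [Fintype ι] {y : σ → K} {e : σ → κ} (hS : Sp (plV W) y e)
    {s : ι → MvPolynomial σ ℂ} (hg : Gen (evH ℂ y) (idl ℂ e) s) {t : K} (h0 : t ≠ 0)
    (h1 : ∀ b, W.v (aeval y (s b)) ≤ W.v t) {q : MvPolynomial σ ℂ} (hq : aeval e q = 0) :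
    W.v (aeval y q) ≤ W.v t ∧ (plV W).r (aeval y q / t) ∈
      Submodule.span κ (range fun b => (plV W).r (aeval y (s b) / t)) := by
  obtain ⟨g, h2, z, h3, h4⟩ := hg q hq
  rw [pow_one] at h3
  obtain ⟨c, rfl⟩ := Ideal.mem_span_range_iff_exists_fun.1 h3
  have h5 : ∀ q : MvPolynomial σ ℂ, aeval y q ∈ W.1 := fun q => (r_aeval (lnr_plV W) hS.mem q).1
  have h6 : W.v (aeval y g) = 1 :=
    (RZ.le_one_iff.2 (h5 g)).antisymm (not_lt.1 ((hS.lt_iff g).not.2 h2))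
  have h7 : aeval y g * (aeval y q / t) = ∑ b, aeval y (c b) * (aeval y (s b) / t) := by
    simp only [← mul_div_assoc, ← Finset.sum_div]
    congr 1
    simpa using h4
  have h8 : ∀ b, aeval y (s b) / t ∈ W.1 := fun b => (RZ.le_iff h0).1 (h1 b)
  have h9 : aeval y q / t ∈ W.1 := by
    have h : W.v (aeval y g * (aeval y q / t)) ≤ 1 :=
      RZ.le_one_iff.2 (h7 ▸ sum_mem fun b _ => mul_mem (h5 _) (h8 b))
    rwa [map_mul, h6, one_mul, RZ.le_one_iff] at h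
  refine ⟨(RZ.le_iff h0).2 h9, ?_⟩
  have h10 := congrArg (plV W).r h7
  rw [Pl.r_mul (p := plV W) (h5 g) h9, hS.r_ev, Tree87.r_sum _ fun b _ => mul_mem (h5 _) (h8 b),
    ← Algebra.smul_def] at h10
  rw [← Submodule.smul_mem_iff _ (show aeval e g ≠ 0 from h2), h10]
  refine sum_mem fun b _ => ?_
  rw [Pl.r_mul (p := plV W) (h5 _) (h8 b), hS.r_ev, ← Algebra.smul_def]
  exact Submodule.smul_mem _ _ (Submodule.subset_span ⟨b, rfl⟩)

theorem cen (hB : B.Ax) (hΦ : MCls B T Φ) (hW : Dvs W) (hY : ∀ j, Y j (i₀ j) ≠ 0)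
    (hη : ∀ j, η j (i₀ j) ≠ 0) (hO : T.On η) (hS : Sp (plV W) (af i₀ Y) (af i₀ η))
    (hr : Module.finrank κ (T.Nm (nrm i₀ η)) = r + 1) (hd : r + dim ℂ κ ≤ dim ℂ (Rf W))
    {g : Fin (r + 1) → A}
    (hg : Gen (evH ℂ (af i₀ Y)) (idl ℂ (af i₀ η)) fun b => dhm i₀ (T.F (g b))) {t : K} (h0 : t ≠ 0)
    (h1 : ∀ b, W.v (aeval (af i₀ Y) (dhm i₀ (T.F (g b)))) ≤ W.v t)
    (h2 : ∃ b, W.v (aeval (af i₀ Y) (dhm i₀ (T.F (g b)))) = W.v t) (m : M → I) :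
    ((cst I Y).dv T).val W = W.v t⁻¹ ∧ B.itg (Rf W) (trm B T (cst I Y) m Φ W) =
      bnum (replicate r (mxf κ fun b => (plV W).r (aeval (af i₀ Y) (dhm i₀ (T.F (g b))) / t))) *
        B.itg κ (Φ κ fun _ => η) := by
  have hc : ∀ j, (Y j (i₀ j))⁻¹ ≠ 0 := fun j => inv_ne_zero (hY j)
  have hO' : T.On (nrm i₀ η) := (on_scl_iff T fun j => inv_ne_zero (hη j)).2 hO
  have h3 := fun a => comb hS hg h0 h1 (q := dhm i₀ (T.F a)) ((pv_nrm' hη _).symm.trans (hO' a))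
  have h4 : ∀ a, W.v (pv (nrm i₀ Y) (T.F a)) ≤ W.v t := fun a => by
    rw [pv_nrm' hY]; exact (h3 a).1
  obtain ⟨b, hb⟩ := h2
  have h5 : W.v (pv (nrm i₀ Y) (T.F (g b))) = W.v t := by rw [pv_nrm' hY]; exact hb
  have hP := prim_nrm hY hS.mem
  obtain ⟨q⟩ := ‹Nonempty I›
  refine ⟨?_, ?_⟩
  · rw [← Cfg.dv_gau T (z := cst I Y) (c := fun _ j => (Y j (i₀ j))⁻¹) (fun _ j => ⟨_, hY j⟩)
      (fun _ => hc), cst_gau hc]
    exact (lin_dv (T := T) (p := plV W) (z := cst I (nrm i₀ Y)) (fun _ => hP) h0 (fun x => h4 x.1)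
      ⟨(g b, q), h5⟩).1
  have h6 := itg_cst (I := I) hB hΦ hW hc hP (red_nrm hY hη (α := toAlgHom ℂ κ (Rf W)) hS.res) hO'
    hr hd h0 h4 ⟨_, h5⟩ m
  have h7 : (mxf κ fun b => (plV W).r (aeval (af i₀ Y) (dhm i₀ (T.F (g b))) / t)) =
      mxf κ fun a => (plV W).r (pv (nrm i₀ Y) (T.F a) / t) := by
    simp only [pv_nrm' hY]
    refine Lin62.mxf_congr ⟨b, Pl.r_ne_zero_iff.2 ?_⟩
      (fun b => Submodule.subset_span ⟨g b, rfl⟩) fun a => (h3 a).2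
    change W.v _ = 1
    rw [map_div₀, hb, div_self (RZ.pos h0).ne']
  rw [h7, ← mcls_nrm hΦ hη hO]
  exact h6

theorem tr_of {σ : Type} {y : σ → K} {e : σ → κ} (hS : Sp (plV W) y e)
    {s : Fin (r + 1) → MvPolynomial σ ℂ} (hs : ∀ b, aeval e (s b) = 0) {i : Fin (r + 1)}
    (h6 : aeval y (s i) ≠ 0) (h7 : ∀ b, W.v (aeval y (s b)) ≤ W.v (aeval y (s i)))
    (h : bnum (replicate r (mxf κ fun b => (plV W).r (aeval y (s b) / aeval y (s i)))) ≠ 0) :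
    TR W.v (evH ℂ y) (idl ℂ e) s (aeval y (s 0)) := by
  have h8 : (plV W).r (aeval y (s i) / aeval y (s i)) ≠ 0 := by
    rw [div_self h6, Pl.r_one]; exact one_ne_zero
  have h9 := pind_of_dim h8 (le_dim_of_bnum h8 h)
  have h10 : W.v (aeval y (s 0)) = W.v (aeval y (s i)) := by
    have := Pl.r_ne_zero_iff.1 (h9.ne 0)
    rwa [map_div₀, div_eq_one_iff_eq (RZ.pos h6).ne'] at this
  exact (hS.tr h6 ((hS.lt_iff _).2 (hs i)) h7 h9).of_val h10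

end Cen

theorem off (hB : B.Ax) (hΦ : MCls B T Φ) (hT : Smo T (r + 1)) (h₀ : GenPt T (r + 1) η)
    (hη : ∀ j, η j (i₀ j) ≠ 0) (hY : NZ Y)
    (hK : adjoin ℂ {t | ∃ j i i', t = Y j i / Y j i'} = ⊤) (hd : dim ℂ K = adim io) (hW : Dvs W)
    (h1 : ((cst I Y).dv T).val W ≠ 1) {m : M → I}
    (h2 : B.itg (Rf W) (trm B T (cst I Y) m Φ W) ≠ 0) : ∃ α : κ →ₐ[ℂ] Rf W,
      (∀ v, af i₀ Y v ∈ W.1) ∧ ∀ v, (plV W).r (af i₀ Y v) = α (af i₀ η v) := by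
  obtain ⟨q⟩ := ‹Nonempty I›
  have := essFT_Rf hW
  have hO := on_at (T := T) (z := cst I Y) (fun _ => hY) h1 q
  have hP := Cfg.pr_nrm (z := cst I Y) (fun _ => hY) W q
  have hc := Cfg.nrm_ne W (cst I Y) q
  change T.On (redP (plV W) (scl ((cst I Y).nrm W q) Y)) at hO
  change Prim W (scl ((cst I Y).nrm W q) Y) at hP
  generalize (cst I Y).nrm W q = c at hO hP hc
  choose i₁ hi using fun j => (hP j).2
  have h3 : ∀ j, Y j (i₁ j) ≠ 0 := fun j =>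
    right_ne_zero_of_mul (RZ.ne_zero_iff.1 (hi j ▸ one_ne_zero))
  have h4 : ∀ j i, nrm i₁ Y j i = scl c Y j i / scl c Y j (i₁ j) := fun j i => by
    rw [nrm_apply, scl, scl, mul_div_mul_left _ _ (hc j)]
  have h5 : ∀ j i, nrm i₁ Y j i ∈ W.1 := fun j i => by
    rw [h4, ← RZ.le_one_iff, map_div₀, hi, div_one, RZ.le_one_iff]; exact (hP j).1 i
  have hP' : Prim W (nrm i₁ Y) := fun j => ⟨h5 j, i₁ j, by rw [nrm_piv h3, map_one]⟩
  have hO' : T.On (redP (plV W) (nrm i₁ Y)) := by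
    have h6 : ∀ j, (plV W).r (scl c Y j (i₁ j)) ≠ 0 := fun j => Pl.r_ne_zero_iff.2 (hi j)
    rw [show redP (plV W) (nrm i₁ Y) = nrm i₁ (redP (plV W) (scl c Y)) from funext fun j =>
      funext fun i => by
        rw [redP, h4, Pl.r_div (p := plV W) ((hP j).1 i) (hi j), nrm_apply]; rfl]
    exact (on_scl_iff T fun j => inv_ne_zero (h6 j)).2 hO
  let F := adjoin ℂ (range fun v : Vr io => (plV W).r (nrm i₁ Y v.1 v.2))
  let ζ : Pnt io F := fun j i => ⟨_, IntermediateField.subset_adjoin _ _ ⟨⟨j, i⟩, rfl⟩⟩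
  have h6 : ∀ j, ζ j (i₁ j) = 1 := fun j => Subtype.ext (by
    change (plV W).r _ = 1
    rw [nrm_piv h3, Pl.r_one])
  have h7 : ∀ j, ζ j (i₁ j) ≠ 0 := fun j => h6 j ▸ one_ne_zero
  have h8 : T.On ζ := (on_map T F.val).1 hO'
  have h9 : adjoin ℂ (range (af i₁ ζ)) = ⊤ := gen_af h7 (top_unique
    ((adjoin_sub fun v : Vr io => (plV W).r (nrm i₁ Y v.1 v.2)).ge.trans
      (IntermediateField.adjoin.mono _ _ _ (by
        rintro _ ⟨v, rfl⟩
        exact ⟨v.1, v.2, i₁ v.1, by rw [h6, div_one]⟩))))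
  have := eft_of_top h9
  have : Algebra.EssFiniteType F (Rf W) := .of_comp ℂ F _
  have : CharZero F := charZero_of_injective_algebraMap (algebraMap ℂ F).injective
  by_cases h10 : dim ℂ κ ≤ dim ℂ F
  · have h11 := piv_ne h₀ h7 h8
    obtain ⟨α, hα⟩ := Lin62.exists_hom (gen_af h11 h₀.gen) (ρ := af i₁ ζ) fun p =>
      (idl_eq_of_dim h9 (spec h₀ h7 h8) h10 p).symm
    have h12 : ∀ j i, (plV W).r (nrm i₁ Y j i) = F.val.comp α (η j i / η j (i₁ j)) := fun j i => by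
      by_cases h : i = i₁ j
      · rw [h, nrm_piv h3, div_self (h11 j), map_one, Pl.r_one]
      · exact (congrArg Subtype.val ((hα ⟨j, i, h⟩).trans (by rw [af, h6, div_one]))).symm
    have h13 : ∀ j, W.v (nrm i₁ Y j (i₀ j)) = 1 := fun j => (Pl.r_ne_zero_iff (p := plV W)).1 (by
      rw [h12]; exact (map_ne_zero _).2 (div_ne_zero (hη j) (h11 j)))
    have h14 : ∀ v, af i₀ Y v = nrm i₁ Y v.1 v.2 / nrm i₁ Y v.1 (i₀ v.1) := fun v => by
      rw [nrm_apply, nrm_apply, div_div_div_cancel_right₀ (h3 _), af]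
    refine ⟨F.val.comp α, fun v => ?_, fun v => ?_⟩
    · rw [h14, ← RZ.le_one_iff, map_div₀, h13, div_one, RZ.le_one_iff]; exact h5 _ _
    · rw [h14, Pl.r_div (p := plV W) (h5 _ _) (h13 _), h12, h12, ← map_div₀,
        div_div_div_cancel_right₀ (h11 _), af]
  · obtain ⟨⟨a, ha⟩, S, hS⟩ := hT
    have hc' : ∀ j, (Y j (i₁ j))⁻¹ ≠ 0 := fun j => inv_ne_zero (h3 j)
    have h11 : pv (nrm i₁ Y) (T.F a) ≠ 0 := by
      rw [nrm, Node22.pv_scl (T.hom a)]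
      exact mul_ne_zero (chr_ne hc' _) (pv_ne hY hK hd.ge (T.hom a) ha)
    obtain ⟨b, hb⟩ := exists_val_mxf (k := ℂ) (s := fun a => pv (nrm i₁ Y) (T.F a)) ⟨a, h11⟩ W
    have h12 := dim_Rf' hW
    have h13 := h₀.dm
    have h14 := Loc.dim_tower ℂ F (Rf W)
    rw [itg_cst hB hΦ hW hc' hP' (η := ζ) rfl h8 (hS F ζ (fun j => ⟨_, h7 j⟩) h8).1 (by omega)
      (ne_of_val hb) (fun a => hb ▸ mem_Sec_mxf (fun a => pv (nrm i₁ Y) (T.F a)) a W) ⟨b, rfl⟩,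
      bnum_of_ne (by rw [List.length_replicate]; omega)] at h2
    simp at h2

/-- the virtual number of the generic constant configuration -/
theorem vir_cst (hB : B.Ax) (hΦ : MCls B T Φ) {c : ℕ} (hT : Smo T c) (h₀ : GenPt T c η) (hY : NZ Y)
    (hK : adjoin ℂ {t | ∃ j i i', t = Y j i / Y j i'} = ⊤) (hd : dim ℂ K = adim io) (m : M → I) :
    vir B T (cst I Y) m Φ = B.itg κ (Φ κ fun _ => η) := by
  classical
  obtain _ | r := c
  · obtain ⟨⟨a, ha⟩, -⟩ := hT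
    exact (pv_ne h₀.nz h₀.gen h₀.dm.ge (T.hom a) ha (h₀.on a)).elim
  choose i₀ hη using h₀.nz
  have h1 : ∀ j, Y j (i₀ j) ≠ 0 := fun j =>
    pv_X Y ⟨j, i₀ j⟩ ▸ pv_ne hY hK hd.ge (mh_X ⟨j, i₀ j⟩) (X_ne_zero _)
  have hO' : T.On (nrm i₀ η) := (on_scl_iff T fun j => inv_ne_zero (hη j)).2 h₀.on
  have hr : Module.finrank κ (T.Nm (nrm i₀ η)) = r + 1 :=
    (hT.2.choose_spec κ _ (fun j => ⟨_, nrm_piv hη j ▸ one_ne_zero⟩) hO').1
  obtain ⟨g, hg⟩ := exists_eqs hη h₀.on hr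
  have hs : ∀ b, aeval (af i₀ η) (dhm i₀ (T.F (g b))) = 0 := fun b =>
    (pv_nrm' hη _).symm.trans (hO' _)
  have h2 := gen_af h1 hK
  have h3 := gen_af hη h₀.gen
  have h4 : Fintype.card (Af i₀) = dim ℂ κ + (r + 1) := (card_af i₀).trans h₀.dm.symm
  have hG : Gen (evH ℂ (af i₀ Y)) (idl ℂ (af i₀ η)) fun b => dhm i₀ (T.F (g b)) :=
    gen_evH h3 hs hg (by simpa using h4.le) _
  obtain ⟨W₀, α₀, hW₀, h5, h6, h7⟩ := exists_blw (indep_af h1 hK hd.ge) h2 h3 hs hg h4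
  have : CharZero κ := charZero_of_injective_algebraMap (algebraMap ℂ κ).injective
  have h8 : ∀ W : RZ ℂ K, Dvs W → r + dim ℂ κ ≤ dim ℂ (Rf W) := fun W hW => by
    have h12 := dim_Rf' hW
    have h13 := h₀.dm
    omega
  rw [vir, finsum_eq_single _ W₀ fun W hW => ?_, finsum_eq_if, if_pos hW₀]
  · let _ := α₀.toRingHom.toAlgebra
    have : IsScalarTower ℂ κ (Rf W₀) := .of_algebraMap_eq fun c => (α₀.commutes c).symm
    have := essFT_Rf hW₀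
    have : Algebra.EssFiniteType κ (Rf W₀) := .of_comp ℂ κ _
    have : MulArchimedean (plV W₀).V.1.ValueGroup := march_dvs hW₀
    have hS : Sp (plV W₀) (af i₀ Y) (af i₀ η) := ⟨lnr_plV W₀, h5, h6⟩
    obtain ⟨h9, h10⟩ := cen (I := I) hB hΦ hW₀ h1 hη h₀.on hS hr (h8 _ hW₀) hG h7.ne h7.sle
      ⟨0, rfl⟩ m
    rw [h10, hS.bnum_one h2 h3 (surj_plV W₀) h7 hG, od_of_gen hW₀ h9.symm, map_inv₀,
      TR.nv_eq h7 hW₀ hG (frc_evH h2), ← exp_neg, log_exp]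
    simp
  rw [finsum_eq_if]
  split_ifs with hV
  swap
  · rfl
  by_contra h9
  obtain ⟨h10, h11⟩ := mul_ne_zero_iff.1 h9
  obtain ⟨α, h12, h13⟩ := off hB hΦ hT h₀ hη hY hK hd hV
    ((od_eq_zero hV).not.1 (Int.cast_ne_zero.1 h10)) h11
  let _ := α.toRingHom.toAlgebra
  have : IsScalarTower ℂ κ (Rf W) := .of_algebraMap_eq fun c => (α.commutes c).symm
  have := essFT_Rf hV
  have : Algebra.EssFiniteType κ (Rf W) := .of_comp ℂ κ _
  have hS : Sp (plV W) (af i₀ Y) (af i₀ η) := ⟨lnr_plV W, h12, h13⟩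
  obtain ⟨b, hb⟩ := exists_val_mxf (k := ℂ)
    (s := fun b => aeval (af i₀ Y) (dhm i₀ (T.F (g b)))) ⟨0, h7.ne⟩ W
  have h14 : ∀ a, W.v (aeval (af i₀ Y) (dhm i₀ (T.F (g a)))) ≤ _ := fun a =>
    hb ▸ mem_Sec_mxf (fun b => aeval (af i₀ Y) (dhm i₀ (T.F (g b)))) a W
  rw [(cen (I := I) hB hΦ hV h1 hη h₀.on hS hr (h8 _ hV) hG (ne_of_val hb) h14 ⟨b, rfl⟩ m).2] at h11
  exact hW (TR.rz_eq (tr_of hS hs (ne_of_val hb) h14
    (Int.cast_ne_zero.1 (left_ne_zero_of_mul h11))) h7 hV hW₀ hG (frc_evH h2))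

theorem one_eq (Y : Pnt io K) : one Y = cst Unit Y :=
  Cfg.ext (fun _ => rfl) fun _ =>
    (top_unique fun (u : Unit → K) _ => mem_one.2 ⟨u (), rfl⟩ : (K ∙ fun _ : Unit => (1 : K)) = ⊤).symm

theorem oneStmt : OneStmt := fun _ hB _ _ _ _ _ _ _ _ _ _ hT _ _ _ _ _ h₀ _ _ _ _ Y hY hK hd _ _ hΦ =>
  one_eq Y ▸ vir_cst hB hΦ hT h₀ hY hK hd _

end Crest.Agent.X262.Dg87
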